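import Mathlib
import Vale.Agent.Lib.P194.Main

namespace Vale.Agent.Results.P194.GlobalEquivalence

universe u

/-- For a prime `p`, the following are equivalent: (1) `𝔽_p[G]` is directly finite for every group
`G`; (2) `K[G]` is stably finite for every group `G` and every field `K` of characteristic `p`.
So the stable form of Kaplansky's conjecture over all fields of characteristic `p` is equivalent
to its plain form over the prime field. -/
theorem result (p : ℕ) [Fact p.Prime] :
    (∀ (G : Type u) [Group G], IsDedekindFiniteMonoid (MonoidAlgebra (ZMod p) G)) ↔
      ∀ (G : Type u) [Group G] (K : Type) [Field K] [CharP K p] (n : ℕ),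
        IsDedekindFiniteMonoid (Matrix (Fin n) (Fin n) (MonoidAlgebra K G)) := by
  constructor
  · intro h G _ K _ _ n
    exact Vale.Agent.Lib.P194.stable_of_prime_field p
      (fun F _ _ => h (G × F)) K n
  · intro h G _
    have h1 := h G (ZMod p) 1
    let e : MonoidAlgebra (ZMod p) G ≃+* Matrix (Fin 1) (Fin 1) (MonoidAlgebra (ZMod p) G) :=
      Matrix.uniqueRingEquiv.symm
    exact IsDedekindFiniteMonoid.of_injective e e.injective

end Vale.Agent.Results.P194.GlobalEquivalence
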