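import Mathlib
import Vale.Agent.Lib.P194.Main

namespace Vale.Agent.Results.P194.PrimeFieldReduction

universe u v

/-- Let `p` be a prime and `G` a group. If the group algebra `𝔽_p[G × F]` is directly finite for
every finite group `F`, then `K[G]` is stably finite for every field `K` of characteristic `p`:
all matrix rings `M_n(K[G])` are directly finite. -/
theorem result (p : ℕ) [Fact p.Prime] (G : Type u) [Group G]
    (h : ∀ (F : Type) [Group F] [Finite F],
      IsDedekindFiniteMonoid (MonoidAlgebra (ZMod p) (G × F)))
    (K : Type v) [Field K] [CharP K p] (n : ℕ) :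
    IsDedekindFiniteMonoid (Matrix (Fin n) (Fin n) (MonoidAlgebra K G)) :=
  Vale.Agent.Lib.P194.stable_of_prime_field p h K n

end Vale.Agent.Results.P194.PrimeFieldReduction
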