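import Mathlib
import Vale.Agent.Lib.P201.Final

namespace Vale.Agent.Results.P194.ThreeTermDirectFinite

open MonoidAlgebra

/-- Let `x, y` be elements of an arbitrary group `G`, and let `N` be a normal subgroup of finite
index of `⟨x, y⟩` admitting a nontrivial homomorphism to the integers. If one of `x`, `y`, `x⁻¹ y`
lies in `N` and has infinite order, then every one-sided inverse in `K[G]` of the element
`a + b x + c y` (with `a, b, c` nonzero) is a two-sided inverse. -/
theorem result {K G : Type*} [Field K] [Group G] (x y : G) (a b c : K)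
    (ha : a ≠ 0) (hb : b ≠ 0) (hc : c ≠ 0)
    (N : Subgroup G) (hNH : N ≤ Subgroup.closure {x, y})
    (hnorm : (N.subgroupOf (Subgroup.closure {x, y})).Normal)
    (hfin : (N.subgroupOf (Subgroup.closure {x, y})).FiniteIndex)
    (φ : N →* Multiplicative ℤ) (hφ : φ ≠ 1)
    (he : (x ∈ N ∧ orderOf x = 0) ∨ (y ∈ N ∧ orderOf y = 0) ∨
      (x⁻¹ * y ∈ N ∧ orderOf (x⁻¹ * y) = 0))
    (u : MonoidAlgebra K G) :
    (single 1 a + single x b + single y c) * u = 1 ↔
      u * (single 1 a + single x b + single y c) = 1 := by
  set α : MonoidAlgebra K G := single 1 a + single x b + single y c with hα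
  constructor
  · intro h
    have h1 : α * (u * α - 1) = 0 := by
      rw [mul_sub, ← mul_assoc, h, one_mul, mul_one, sub_self]
    have := Vale.Agent.Lib.P201.normal_indicable x y a b c ha hb hc N hNH hnorm hfin φ hφ he
      (u * α - 1) (Or.inl h1)
    exact sub_eq_zero.mp this
  · intro h
    have h1 : (α * u - 1) * α = 0 := by
      rw [sub_mul, mul_assoc, h, mul_one, one_mul, sub_self]
    have := Vale.Agent.Lib.P201.normal_indicable x y a b c ha hb hc N hNH hnorm hfin φ hφ he
      (α * u - 1) (Or.inr h1)
    exact sub_eq_zero.mp this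

end Vale.Agent.Results.P194.ThreeTermDirectFinite
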