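import Mathlib
import Vale.Agent.Results.P194.GlobalEquivalence
import Vale.Agent.Results.P194.PrimeFieldReduction
import Vale.Agent.Results.P194.ThreeTermDirectFinite

namespace Vale.Agent.Results.P194.A0Conj

open MonoidAlgebra

universe u v w

/-- Three complementary statements on direct finiteness of group algebras. (1) For a prime `p`,
`𝔽_p[G]` is directly finite for all groups `G` iff `K[G]` is stably finite for all groups `G` and
all fields `K` of characteristic `p`. (2) For a fixed `G`, direct finiteness of `𝔽_p[G × F]` for all
finite groups `F` gives stable finiteness of `K[G]` for all fields `K` of characteristic `p`.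
(3) Over any field and any group, a three-term element `a + b x + c y` such that `⟨x, y⟩` has a
normal subgroup `N` of finite index with a nontrivial homomorphism to the integers, and one of `x`,
`y`, `x⁻¹ y` lies in `N` with infinite order: a right inverse is the same as a left inverse. -/
theorem result :
    (∀ (p : ℕ) [Fact p.Prime],
      (∀ (G : Type u) [Group G], IsDedekindFiniteMonoid (MonoidAlgebra (ZMod p) G)) ↔
        ∀ (G : Type u) [Group G] (K : Type) [Field K] [CharP K p] (n : ℕ),
          IsDedekindFiniteMonoid (Matrix (Fin n) (Fin n) (MonoidAlgebra K G))) ∧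
    (∀ (p : ℕ) [Fact p.Prime] (G : Type u) [Group G]
      (_ : ∀ (F : Type) [Group F] [Finite F],
        IsDedekindFiniteMonoid (MonoidAlgebra (ZMod p) (G × F)))
      (K : Type v) [Field K] [CharP K p] (n : ℕ),
      IsDedekindFiniteMonoid (Matrix (Fin n) (Fin n) (MonoidAlgebra K G))) ∧
    (∀ {K : Type v} {G : Type w} [Field K] [Group G] (x y : G) (a b c : K)
      (_ : a ≠ 0) (_ : b ≠ 0) (_ : c ≠ 0)
      (N : Subgroup G) (_ : N ≤ Subgroup.closure {x, y})
      (_ : (N.subgroupOf (Subgroup.closure {x, y})).Normal)
      (_ : (N.subgroupOf (Subgroup.closure {x, y})).FiniteIndex)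
      (φ : N →* Multiplicative ℤ) (_ : φ ≠ 1)
      (_ : (x ∈ N ∧ orderOf x = 0) ∨ (y ∈ N ∧ orderOf y = 0) ∨
        (x⁻¹ * y ∈ N ∧ orderOf (x⁻¹ * y) = 0))
      (u : MonoidAlgebra K G),
      (single 1 a + single x b + single y c) * u = 1 ↔
        u * (single 1 a + single x b + single y c) = 1) :=
  ⟨@GlobalEquivalence.result, @PrimeFieldReduction.result, @ThreeTermDirectFinite.result⟩

end Vale.Agent.Results.P194.A0Conj
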